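import Vale.Agent.P122.H540.Spec
import Vale.Agent.P122.H540.Tools
import Vale.Agent.P122.H611.Tools

/-! # P122 / E9 : existence of the common frame (helper420) -/

set_option autoImplicit false

namespace Vale.Agent.P122.H420

open Filter Topology Finset Vale.Agent.P127 Vale.Agent.P127.Stk Vale.Agent.P127.U Vale.Agent.P127.U.Sys
  Vale.Agent.P122.C2 Vale.Agent.P122.E Vale.Agent.P122.H540

theorem sin_tri (a b c : ℝ) : |Real.sin (a - c)| ≤ |Real.sin (a - b)| + |Real.sin (b - c)| := by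
  have h : a - c = (a - b) + (b - c) := by ring
  rw [h, Real.sin_add]
  refine (abs_add_le _ _).trans ?_
  rw [abs_mul, abs_mul]
  have h1 := Real.abs_cos_le_one (b - c)
  have h2 := Real.abs_cos_le_one (a - b)
  nlinarith [abs_nonneg (Real.sin (a - b)), abs_nonneg (Real.sin (b - c))]

theorem sin_comm (a b : ℝ) : |Real.sin (a - b)| = |Real.sin (b - a)| := by
  rw [← abs_neg, ← Real.sin_neg]
  congr 2
  ring

theorem nu_nn {S : Sys} {n : ℕ → ℕ} (h : S.Bd n) : 0 ≤ S.nu n := by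
  obtain ⟨C, hC⟩ := h
  have h0 : ∀ᶠ i in (uf : Filter ℕ), 0 < (S.L i : ℝ) := by
    filter_upwards [S.Ltop.eventually_gt_atTop 0] with i hi
    exact_mod_cast hi
  have hub : UB fun i => (n i : ℝ) / S.L i := by
    refine UB.of_le (C := C) (Eventually.of_forall fun i => by positivity) ?_
    filter_upwards [hC, h0] with i h1 h2
    rwa [div_le_iff₀ h2]
  exact const_le_ulim hub (Eventually.of_forall fun i => by positivity)

theorem kkjj {K : ℕ} {F : Flg K} {J θ H e : ℕ → ℝ} {W : ℕ → F.S.BX} {kk jj : ℕ → ℕ → ℕ} (hR : RegA F J θ H e W kk jj)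
    {c : ℕ} (hc : c ≤ K) : ∀ᶠ i in (uf : Filter ℕ), kk c i ≤ jj c i ∧ jj c i ≤ c * F.n i := by
  filter_upwards [hR.Wok c hc] with i hi
  obtain ⟨ω, hω⟩ := exists_pos (F.S.P i)
  exact (hi ω hω).2.2.2.2

theorem bd_jj {K : ℕ} {F : Flg K} {J θ H e : ℕ → ℝ} {W : ℕ → F.S.BX} {kk jj : ℕ → ℕ → ℕ} (hR : RegA F J θ H e W kk jj)
    {c : ℕ} (hc : c ≤ K) : F.S.Bd (jj c) := by
  refine ⟨1, ?_⟩
  filter_upwards [kkjj hR hc] with i hi
  rw [one_mul, F.L_eq]
  have : jj c i ≤ K * F.n i := hi.2.trans (Nat.mul_le_mul_right _ hc)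
  exact_mod_cast this

theorem bd_kk {K : ℕ} {F : Flg K} {J θ H e : ℕ → ℝ} {W : ℕ → F.S.BX} {kk jj : ℕ → ℕ → ℕ} (hR : RegA F J θ H e W kk jj)
    {c : ℕ} (hc : c ≤ K) : F.S.Bd (kk c) := by
  refine ⟨1, ?_⟩
  filter_upwards [kkjj hR hc] with i hi
  rw [one_mul, F.L_eq]
  have : kk c i ≤ K * F.n i := hi.1.trans (hi.2.trans (Nat.mul_le_mul_right _ hc))
  exact_mod_cast this

/-- **common frame** -/
theorem stPsi {κ C₀ : ℝ} (hκ : κ ≤ 1 / 4) (hC : 2 ≤ C₀) (hx : StExc) (h8 : E8 κ C₀) : StPsi κ C₀ := by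
  intro K F J θ H e W kk jj hK hR c1 i j hc1 hi hij hj2 hjK hk hCK hth
  have hK0 : (0 : ℝ) < K := by exact_mod_cast hK
  have h2K : 2 / (K : ℝ) ≤ c1 := (div_le_div_of_nonneg_right hC hK0.le).trans hCK
  have h2 : (2 : ℝ) ≤ c1 * K := by rwa [div_le_iff₀ hK0] at h2K
  -- thin levels are high
  have high : ∀ c, 2 * i - j ≤ c → c ≤ j → c1 * K ≤ 2 * c + 1 := by
    intro c h1 h2'
    have ht := (hth c h1 h2').1
    have he := hx F J θ H e W kk jj hK hR c (h2'.trans hjK)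
    have n1 := nu_nn (bd_kk hR (h2'.trans hjK))
    have n2 := nu_nn (bd_jj hR (h2'.trans hjK))
    have : c1 ≤ 2 * c / K + 1 / K := by linarith
    rw [← add_div, le_div_iff₀ hK0] at this
    exact this
  have hd : ((j : ℝ) - i) ≤ c1 * K / 4 := by
    rw [div_le_iff₀ hK0] at hk
    nlinarith [mul_pos hc1 hK0]
  -- `ψ` from the frame of level `i`
  have c_i : 2 * i - j ≤ i := by omega
  obtain ⟨ψ, p1, -⟩ := h8 F J θ H e W kk jj hK hR c1 i i j hc1 hi le_rfl hij hj2 hjK hk hCK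
    (hth i c_i hij) (hth i c_i hij)
  refine ⟨ψ, fun c hc hc1' hc2 => ?_⟩
  rcases le_total i c with hic | hci
  · obtain ⟨ψ', q1, q2⟩ := h8 F J θ H e W kk jj hK hR c1 i c j hc1 hi hic hc2 hj2 hjK hk hCK
      (hth i c_i hij) (hth c hc1' hc2)
    refine E.Rare.mono ((p1.or q1).or q2) (Filter.Eventually.of_forall fun a ω _ hb => ?_)
    by_contra hcon
    push Not at hcon
    obtain ⟨⟨g1, g2⟩, g3⟩ := hcon
    have t1 := sin_tri ((W c a).θ ω) (ψ' a (F.sig i j a ω)) (ψ a (F.sig i j a ω))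
    have t2 := sin_tri (ψ' a (F.sig i j a ω)) ((W i a).θ ω) (ψ a (F.sig i j a ω))
    rw [sin_comm (ψ' a (F.sig i j a ω)) ((W i a).θ ω)] at t2
    linarith
  · have hcr : c1 * K ≤ 2 * c + 1 := high c hc1' hc2
    have hic2 : i ≤ 2 * c := by
      have e1 : ((i : ℝ) - c) ≤ (j : ℝ) - i := by
        have : 2 * i ≤ c + j := by omega
        have : (2 * i : ℝ) ≤ c + j := by exact_mod_cast this
        linarith
      have e2 : (1 : ℝ) ≤ c := by exact_mod_cast hc
      have : (i : ℝ) ≤ 2 * c := by linarith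
      exact_mod_cast this
    have hk' : ((i : ℝ) - c) / K ≤ κ * c1 := by
      refine le_trans (div_le_div_of_nonneg_right ?_ hK0.le) hk
      have : 2 * i ≤ c + j := by omega
      have : (2 * i : ℝ) ≤ c + j := by exact_mod_cast this
      linarith
    obtain ⟨ψ', q1, q2⟩ := h8 F J θ H e W kk jj hK hR c1 c i i hc1 hc hci le_rfl hic2 (hij.trans hjK) hk' hCK
      (hth c hc1' hc2) (hth i c_i hij)
    refine E.Rare.mono ((p1.or q1).or q2) (Filter.Eventually.of_forall fun a ω _ hb => ?_)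
    by_contra hcon
    push Not at hcon
    obtain ⟨⟨g1, g2⟩, g3⟩ := hcon
    have t1 := sin_tri ((W c a).θ ω) (ψ' a (F.sig c i a ω)) (ψ a (F.sig i j a ω))
    have t2 := sin_tri (ψ' a (F.sig c i a ω)) ((W i a).θ ω) (ψ a (F.sig i j a ω))
    rw [sin_comm (ψ' a (F.sig c i a ω)) ((W i a).θ ω)] at t2
    linarith

end Vale.Agent.P122.H420
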