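import Vale.Agent.P122.E.Defs

/-!
# P122 / E : calculus of counts on the support (helper420)

* `cnt_mono`, `cnt_of_fn`, `cnt_right`, `cnt_left`, `cnt_pair`, `cnt_trans`, `cnt_bdd`
* `unf_mono`, `unf_fine`, `unf_drop`
-/

set_option autoImplicit false

namespace Vale.Agent.P122.H420

open Filter Topology Finset Vale.Agent.P127 Vale.Agent.P127.U Vale.Agent.P127.U.Sys Vale.Agent.P122.E

section cnt

variable {S : Sys} {α β γ δ : Type*}

theorem L_one (S : Sys) : ∀ᶠ i in (uf : Filter ℕ), (1 : ℝ) ≤ S.L i := by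
  filter_upwards [S.nm_pos] with i hi
  have h1 : 0 < (S.L i : ℝ) := by
    unfold Sys.nm at hi
    have h2 : 0 < Real.log 2 := Real.log_pos (by norm_num)
    exact (pos_iff_pos_of_mul_pos hi).2 h2
  have h3 : 0 < S.L i := by exact_mod_cast h1
  exact_mod_cast h3

theorem two_rpow_mono {S : Sys} {i : ℕ} {r r' : ℝ} (h : r ≤ r') :
    (2 : ℝ) ^ (r * S.L i) ≤ (2 : ℝ) ^ (r' * S.L i) :=
  Real.rpow_le_rpow_of_exponent_le (by norm_num)
    (mul_le_mul_of_nonneg_right h (Nat.cast_nonneg _))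

theorem cnt_mono {X : S.RV α} {Z : S.RV β} {r r' : ℝ} (h : Cnt S X Z r) (hr : r ≤ r') :
    Cnt S X Z r' := by
  intro ε hε
  filter_upwards [h ε hε] with i hi ω hω
  obtain ⟨U, hU, hm⟩ := hi ω hω
  exact ⟨U, hU.trans (two_rpow_mono (by linarith)), hm⟩

/-- it is enough to have the count `r + ε` for every `ε` -/
theorem cnt_of_forall {X : S.RV α} {Z : S.RV β} {r : ℝ} (h : ∀ ε : ℝ, 0 < ε → Cnt S X Z (r + ε)) :
    Cnt S X Z r := by
  intro ε hε
  filter_upwards [h (ε / 2) (half_pos hε) (ε / 2) (half_pos hε)] with i hi ω hω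
  obtain ⟨U, hU, hm⟩ := hi ω hω
  refine ⟨U, hU.trans (two_rpow_mono (by linarith)), hm⟩

/-- at most `2^(o(L))` values -/
theorem cnt_zero {X : S.RV α} {Z : S.RV β} {M : ℕ → ℝ}
    (hM : ∀ ε : ℝ, 0 < ε → ∀ᶠ i in (uf : Filter ℕ), M i ≤ (2 : ℝ) ^ (ε * S.L i))
    (h : ∀ᶠ i in (uf : Filter ℕ), ∀ ω, 0 < (S.P i).w ω → ∃ U : Finset α, (U.card : ℝ) ≤ M i ∧
      ∀ ω', 0 < (S.P i).w ω' → Z i ω' = Z i ω → X i ω' ∈ U) : Cnt S X Z 0 := by
  intro ε hε
  filter_upwards [h, hM ε hε] with i hi hMi ω hω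
  obtain ⟨U, hU, hm⟩ := hi ω hω
  refine ⟨U, ?_, hm⟩
  rw [zero_add]
  exact hU.trans hMi

theorem const_le (S : Sys) (M : ℝ) {ε : ℝ} (hε : 0 < ε) :
    ∀ᶠ i in (uf : Filter ℕ), M ≤ (2 : ℝ) ^ (ε * S.L i) := by
  obtain ⟨n, hn⟩ := exists_nat_gt (Real.log (max M 1) / (ε * Real.log 2))
  have hlog : 0 < Real.log 2 := Real.log_pos (by norm_num)
  have hL : ∀ᶠ i in (uf : Filter ℕ), (n : ℝ) ≤ S.L i := by
    have h1 := S.Ltop
    exact (tendsto_natCast_atTop_atTop.comp h1).eventually_ge_atTop (n : ℝ)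
  filter_upwards [hL] with i hi
  have h1 : Real.log (max M 1) ≤ ε * S.L i * Real.log 2 := by
    have h2 : Real.log (max M 1) / (ε * Real.log 2) ≤ S.L i := hn.le.trans hi
    rw [div_le_iff₀ (by positivity)] at h2
    linarith
  have h3 : max M 1 ≤ (2 : ℝ) ^ (ε * S.L i) := by
    rw [← Real.log_le_log_iff (by positivity) (by positivity), Real.log_rpow (by norm_num)]
    exact h1
  exact (le_max_left _ _).trans h3

/-- at most `M` values -/
theorem cnt_bdd {X : S.RV α} {Z : S.RV β} (M : ℝ)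
    (h : ∀ᶠ i in (uf : Filter ℕ), ∀ ω, 0 < (S.P i).w ω → ∃ U : Finset α, (U.card : ℝ) ≤ M ∧
      ∀ ω', 0 < (S.P i).w ω' → Z i ω' = Z i ω → X i ω' ∈ U) : Cnt S X Z 0 :=
  cnt_zero (M := fun _ => M) (fun _ hε => const_le S M hε) h

/-- a function has one value -/
theorem cnt_of_fn {X : S.RV α} {Z : S.RV β} (h : Sys.Fn X Z) : Cnt S X Z 0 := by
  classical
  refine cnt_bdd 1 ?_
  unfold Sys.Fn at h
  filter_upwards [h] with i hi ω hω
  refine ⟨{X i ω}, by simp, fun ω' hω' e => ?_⟩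
  rw [Finset.mem_singleton]
  exact hi ω' ω hω' hω e

/-- more information in the condition -/
theorem cnt_right {X : S.RV α} {Z : S.RV β} {Z' : S.RV γ} {r : ℝ} (h : Cnt S X Z r)
    (hZ : Sys.Fn Z Z') : Cnt S X Z' r := by
  intro ε hε
  unfold Sys.Fn at hZ
  filter_upwards [h ε hε, hZ] with i hi hz ω hω
  obtain ⟨U, hU, hm⟩ := hi ω hω
  exact ⟨U, hU, fun ω' hω' e => hm ω' hω' (hz ω' ω hω' hω e)⟩

/-- pairs -/
theorem cnt_pair {X : S.RV α} {Y : S.RV β} {Z : S.RV γ} {r r' : ℝ} (h : Cnt S X Z r)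
    (h' : Cnt S Y (Sys.pr X Z) r') : Cnt S (Sys.pr X Y) Z (r + r') := by
  classical
  intro ε hε
  filter_upwards [h (ε / 2) (half_pos hε), h' (ε / 2) (half_pos hε)] with i h1 h2 ω hω
  obtain ⟨U, hU, hm⟩ := h1 ω hω
  have h3 : ∀ x : α, ∃ V : Finset β, (V.card : ℝ) ≤ (2 : ℝ) ^ ((r' + ε / 2) * S.L i) ∧
      ∀ ω', 0 < (S.P i).w ω' → X i ω' = x → Z i ω' = Z i ω → Y i ω' ∈ V := by
    intro x
    by_cases hx : ∃ ω₁, 0 < (S.P i).w ω₁ ∧ X i ω₁ = x ∧ Z i ω₁ = Z i ω
    · obtain ⟨ω₁, a1, a2, a3⟩ := hx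
      obtain ⟨V, hV, hv⟩ := h2 ω₁ a1
      refine ⟨V, hV, fun ω' hω' e1 e2 => hv ω' hω' ?_⟩
      show (X i ω', Z i ω') = (X i ω₁, Z i ω₁)
      rw [e1, e2, a2, a3]
    · refine ⟨∅, by simp; positivity, fun ω' hω' e1 e2 => ?_⟩
      exact absurd ⟨ω', hω', e1, e2⟩ hx
  choose V hV hv using h3
  refine ⟨U.biUnion fun x => (V x).image fun y => (x, y), ?_, ?_⟩
  · have c1 : ((U.biUnion fun x => (V x).image fun y => (x, y)).card : ℝ) ≤
        ∑ x ∈ U, ((V x).card : ℝ) := by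
      have c2 : (U.biUnion fun x => (V x).image fun y => (x, y)).card ≤ ∑ x ∈ U, (V x).card :=
        Finset.card_biUnion_le.trans (Finset.sum_le_sum fun x _ => Finset.card_image_le)
      exact_mod_cast c2
    have c3 : ∑ x ∈ U, ((V x).card : ℝ) ≤ ∑ _x ∈ U, (2 : ℝ) ^ ((r' + ε / 2) * S.L i) :=
      Finset.sum_le_sum fun x _ => hV x
    rw [Finset.sum_const, nsmul_eq_mul] at c3
    have c4 : (U.card : ℝ) * (2 : ℝ) ^ ((r' + ε / 2) * S.L i) ≤
        (2 : ℝ) ^ ((r + ε / 2) * S.L i) * (2 : ℝ) ^ ((r' + ε / 2) * S.L i) :=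
      mul_le_mul_of_nonneg_right hU (by positivity)
    rw [← Real.rpow_add (by norm_num)] at c4
    refine c1.trans (c3.trans (c4.trans (le_of_eq ?_)))
    congr 1
    ring
  · intro ω' hω' e
    rw [Finset.mem_biUnion]
    refine ⟨X i ω', hm ω' hω' e, Finset.mem_image.2 ⟨Y i ω', hv (X i ω') ω' hω' rfl e, rfl⟩⟩

/-- a coarser variable -/
theorem cnt_left {X : S.RV α} {X' : S.RV δ} {Z : S.RV β} {r : ℝ} (h : Cnt S X Z r)
    (hX : Sys.Fn X' (Sys.pr X Z)) : Cnt S X' Z r := by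
  classical
  intro ε hε
  unfold Sys.Fn at hX
  filter_upwards [h ε hε, hX] with i hi hx ω hω
  obtain ⟨U, hU, hm⟩ := hi ω hω
  have h3 : ∀ x : α, ∃ y : δ, ∀ ω', 0 < (S.P i).w ω' → X i ω' = x → Z i ω' = Z i ω → X' i ω' = y := by
    intro x
    by_cases hx' : ∃ ω₁, 0 < (S.P i).w ω₁ ∧ X i ω₁ = x ∧ Z i ω₁ = Z i ω
    · obtain ⟨ω₁, a1, a2, a3⟩ := hx'
      refine ⟨X' i ω₁, fun ω' hω' e1 e2 => hx ω' ω₁ hω' a1 ?_⟩
      show (X i ω', Z i ω') = (X i ω₁, Z i ω₁)
      rw [e1, e2, a2, a3]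
    · exact ⟨X' i ω, fun ω' hω' e1 e2 => absurd ⟨ω', hω', e1, e2⟩ hx'⟩
  choose f hf using h3
  refine ⟨U.image f, ?_, fun ω' hω' e => ?_⟩
  · have : (U.image f).card ≤ U.card := Finset.card_image_le
    exact (by exact_mod_cast this : ((U.image f).card : ℝ) ≤ U.card).trans hU
  · exact Finset.mem_image.2 ⟨X i ω', hm ω' hω' e, (hf (X i ω') ω' hω' rfl e).symm⟩

/-- chain: `X` given `Y`, `Y` given `Z` -/
theorem cnt_trans {X : S.RV α} {Y : S.RV β} {Z : S.RV γ} {r r' : ℝ} (h : Cnt S X Y r)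
    (h' : Cnt S Y Z r') : Cnt S X Z (r + r') := by
  have h1 := cnt_right h (Z' := Sys.pr Y Z) (Eventually.of_forall fun _ _ _ _ _ e =>
    congrArg Prod.fst e)
  have h2 := cnt_pair h' h1
  refine cnt_mono (cnt_left h2 (X' := X) ?_) (by linarith)
  exact Eventually.of_forall fun _ _ _ _ _ e => congrArg (fun z => z.1.2) e

/-- `X` given `(Y, Z)`, `Y` given `Z` -/
theorem cnt_chain {X : S.RV α} {Y : S.RV β} {Z : S.RV γ} {r r' : ℝ} (h : Cnt S X (Sys.pr Y Z) r)
    (h' : Cnt S Y Z r') : Cnt S X Z (r + r') := by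
  have h2 := cnt_pair h' h
  refine cnt_mono (cnt_left h2 (X' := X) ?_) (by linarith)
  exact Eventually.of_forall fun _ _ _ _ _ e => congrArg (fun z => z.1.2) e

end cnt

section unf

variable {S : Sys} {α β γ : Type*}

theorem unf_mono {X : S.RV α} {r r' : ℝ} (h : Unf S X r) (hr : r' ≤ r) : Unf S X r' := by
  intro ε hε
  filter_upwards [h ε hε] with i hi ω
  exact (hi ω).trans (two_rpow_mono (by linarith))

theorem unf_of_forall {X : S.RV α} {r : ℝ} (h : ∀ ε : ℝ, 0 < ε → Unf S X (r - ε)) : Unf S X r := by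
  intro ε hε
  filter_upwards [h (ε / 2) (half_pos hε) (ε / 2) (half_pos hε)] with i hi ω
  exact (hi ω).trans (two_rpow_mono (by linarith))

open Classical in
/-- finite form: the probability of a value of `Y` is at most the one of the value of `X` -/
theorem pr_fine {Ω : Type} [Fintype Ω] (P : Law Ω) (X : Ω → α) (Y : Ω → β) {M : ℝ} (hM : 0 ≤ M)
    (hX : ∀ ω, P.pr X (X ω) ≤ M)
    (h : ∀ ω ω', 0 < P.w ω → 0 < P.w ω' → Y ω = Y ω' → X ω = X ω') (ω : Ω) :
    P.pr Y (Y ω) ≤ M := by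
  by_cases hex : ∃ ω₁, 0 < P.w ω₁ ∧ Y ω₁ = Y ω
  · obtain ⟨ω₁, a1, a2⟩ := hex
    refine le_trans ?_ (hX ω₁)
    unfold Law.pr
    have h1 : ∑ ω' with Y ω' = Y ω, P.w ω' ≤ ∑ ω' with Y ω' = Y ω, (if X ω' = X ω₁ then P.w ω' else 0) := by
      refine Finset.sum_le_sum fun ω' hω' => ?_
      have e : Y ω' = Y ω := by simpa using hω'
      split_ifs with h2
      · exact le_rfl
      · by_contra hcon
        push Not at hcon
        exact h2 (h ω' ω₁ hcon a1 (e.trans a2.symm))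
    refine (le_of_eq ?_).trans (h1.trans ?_)
    · rfl
    · rw [← Finset.sum_filter]
      refine (Finset.sum_le_sum_of_subset_of_nonneg (t := Finset.univ.filter fun ω' => X ω' = X ω₁)
        ?_ fun ω' _ _ => P.nn ω').trans (le_of_eq ?_)
      · intro ω' hω'
        simp only [Finset.mem_filter, Finset.mem_univ, true_and] at hω' ⊢
        exact hω'.2
      · rfl
  · push Not at hex
    have : P.pr Y (Y ω) = 0 := by
      unfold Law.pr
      refine Finset.sum_eq_zero fun ω' hω' => ?_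
      have e : Y ω' = Y ω := by simpa using hω'
      refine le_antisymm ?_ (P.nn ω')
      by_contra hcon
      exact hex ω' (not_le.1 hcon) e
    rw [this]
    exact hM

/-- a finer variable -/
theorem unf_fine {X : S.RV α} {Y : S.RV β} {r : ℝ} (h : Unf S X r) (hX : Sys.Fn X Y) :
    Unf S Y r := by
  intro ε hε
  unfold Sys.Fn at hX
  filter_upwards [h ε hε, hX] with i hi hx ω
  exact pr_fine (S.P i) (X i) (Y i) (by positivity) hi (fun ω ω' p p' e => hx ω ω' p p' e) ω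

/-- a coarser variable with few values in the fibres -/
theorem unf_drop {X : S.RV α} {Y : S.RV β} {r s : ℝ} (h : Unf S Y r) (h' : Cnt S Y X s) :
    Unf S X (r - s) := by
  classical
  intro ε hε
  filter_upwards [h (ε / 2) (half_pos hε), h' (ε / 2) (half_pos hε)] with i h1 h2 ω
  by_cases hex : ∃ ω₁, 0 < (S.P i).w ω₁ ∧ X i ω₁ = X i ω
  · obtain ⟨ω₁, a1, a2⟩ := hex
    obtain ⟨U, hU, hm⟩ := h2 ω₁ a1
    -- values on the support
    set U' : Finset β := U.filter fun y => ∃ ω', Y i ω' = y with hU'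
    have c1 : (S.P i).pr (X i) (X i ω) ≤ ∑ y ∈ U', (S.P i).pr (Y i) y := by
      unfold Law.pr
      have e1 : ∑ y ∈ U', ∑ ω' with Y i ω' = y, (S.P i).w ω' =
          ∑ ω' with Y i ω' ∈ U', (S.P i).w ω' := by
        rw [← Finset.sum_fiberwise_of_maps_to (s := Finset.univ.filter fun ω' => Y i ω' ∈ U')
          (t := U') (g := Y i) (fun ω' hω' => by simpa using hω')]
        refine Finset.sum_congr rfl fun y hy => ?_
        refine Finset.sum_congr ?_ fun _ _ => rfl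
        ext ω'
        simp only [Finset.mem_filter, Finset.mem_univ, true_and]
        constructor
        · intro h
          exact ⟨by rw [h]; exact hy, h⟩
        · intro h
          exact h.2
      have e2 : ∑ ω' with X i ω' = X i ω, (S.P i).w ω' ≤
          ∑ ω' with Y i ω' ∈ U', (S.P i).w ω' := by
        rw [Finset.sum_filter, Finset.sum_filter]
        refine Finset.sum_le_sum fun ω' _ => ?_
        rcases ((S.P i).nn ω').eq_or_lt with h0 | h0
        · rw [← h0]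
          split_ifs <;> exact le_rfl
        · split_ifs with g1 g2 g2
          · exact le_rfl
          · exact absurd (Finset.mem_filter.2 ⟨hm ω' h0 (g1.trans a2.symm), ω', rfl⟩) g2
          · exact h0.le
          · exact le_rfl
      refine e2.trans (le_of_eq ?_)
      convert e1.symm using 2
    have c2 : ∑ y ∈ U', (S.P i).pr (Y i) y ≤ ∑ _y ∈ U', (2 : ℝ) ^ ((-r + ε / 2) * S.L i) := by
      refine Finset.sum_le_sum fun y hy => ?_
      obtain ⟨-, ω', rfl⟩ := Finset.mem_filter.1 hy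
      exact h1 ω'
    rw [Finset.sum_const, nsmul_eq_mul] at c2
    have c3 : (U'.card : ℝ) ≤ (2 : ℝ) ^ ((s + ε / 2) * S.L i) := by
      have : U'.card ≤ U.card := Finset.card_filter_le _ _
      exact (by exact_mod_cast this : (U'.card : ℝ) ≤ U.card).trans hU
    have c4 : (U'.card : ℝ) * (2 : ℝ) ^ ((-r + ε / 2) * S.L i) ≤
        (2 : ℝ) ^ ((s + ε / 2) * S.L i) * (2 : ℝ) ^ ((-r + ε / 2) * S.L i) :=
      mul_le_mul_of_nonneg_right c3 (by positivity)
    rw [← Real.rpow_add (by norm_num)] at c4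
    refine c1.trans (c2.trans (c4.trans (le_of_eq ?_)))
    congr 1
    ring
  · push Not at hex
    have : (S.P i).pr (X i) (X i ω) = 0 := by
      unfold Law.pr
      refine Finset.sum_eq_zero fun ω' hω' => ?_
      have e : X i ω' = X i ω := by simpa using hω'
      refine le_antisymm ?_ ((S.P i).nn ω')
      by_contra hcon
      exact hex ω' (not_le.1 hcon) e
    rw [this]
    positivity

end unf

end Vale.Agent.P122.H420
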